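import Crest.Agent.N067.A.Top
import Crest.Agent.N067.E.Top
import Crest.Agent.N067.K.Tube
import Crest.Agent.N067.K.Seven

/-! Row 67 (helper69): `S0089` and `S0090` from the master inequality `MIStmt`. -/

set_option autoImplicit false

open MeasureTheory Laplacian InnerProductSpace
open scoped RealInnerProductSpace Gradient

namespace Crest.Agent.N067

open Crest.Agent.R077

theorem s90_of_mi (h : MIStmt) : E.S90 := s90_of_seven (seven_of_mi h)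

/-- the literal statement `S0090` -/
theorem s0090_of_mi (h : MIStmt) (v : EuclideanSpace ℝ (Fin 7) → ℝ) (hv : ContDiff ℝ 2 v)
    (hrange : ∀ x, v x ∈ Set.Icc (-1 : ℝ) 1) (heq : ∀ x, (Δ v) x = v x ^ 3 - v x)
    (hstable : ∀ φ : EuclideanSpace ℝ (Fin 7) → ℝ, ContDiff ℝ 1 φ → HasCompactSupport φ →
      0 ≤ ∫ x, (‖∇ φ x‖ ^ 2 + (3 * v x ^ 2 - 1) * φ x ^ 2)) :
    (∀ x, v x = 1) ∨ (∀ x, v x = -1) ∨
      ∃ a : EuclideanSpace ℝ (Fin 7), ‖a‖ = 1 ∧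
        ∃ b : ℝ, ∀ x, v x = Real.tanh ((⟪a, x⟫ - b) / Real.sqrt 2) :=
  s0090_of (s90_of_mi h) v hv hrange heq hstable

/-- the literal statement `S0089` -/
theorem s0089_of_mi (h : MIStmt) (u : EuclideanSpace ℝ (Fin 8) → ℝ) (hu : ContDiff ℝ 2 u)
    (hrange : ∀ x, u x ∈ Set.Ioo (-1 : ℝ) 1) (heq : ∀ x, (Δ u) x = u x ^ 3 - u x)
    (hmono : ∀ x, 0 < fderiv ℝ u x (EuclideanSpace.single (Fin.last 7) 1)) :
    ∃ e : EuclideanSpace ℝ (Fin 8), ‖e‖ = 1 ∧ 0 < e (Fin.last 7) ∧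
      ∃ c : ℝ, ∀ x, u x = Real.tanh ((⟪e, x⟫ - c) / Real.sqrt 2) :=
  E.s89 (s90_of_mi h) pm (tube h area) iS u hu hrange heq hmono

end Crest.Agent.N067
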